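import Mathlib

/-!
# P247: hypersymplectic structures on the four-torus `ℝ⁴ / ℤ⁴`

Differential forms on the torus `T⁴ = ℝ⁴ / ℤ⁴` are represented by smooth `ℤ⁴`-periodic differential
forms on `ℝ⁴ = Fin 4 → ℝ`, in the sense of Mathlib (`E → E [⋀^Fin k]→L[ℝ] ℝ`, with `extDeriv`).
-/

namespace Vale.Agent.P247

/-- The vector space `ℝ⁴`. -/
abbrev E4 : Type := Fin 4 → ℝ

/-- Constant-coefficient (alternating) `k`-forms on `ℝ⁴`. -/
abbrev Alt (k : ℕ) : Type := E4 [⋀^Fin k]→L[ℝ] ℝ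

/-- The standard basis vector `e i` of `ℝ⁴`. -/
def e (i : Fin 4) : E4 := Pi.single i 1

/-- The wedge pairing of two alternating `2`-forms on `ℝ⁴`:
`wedge α β` is the coefficient of `dx⁰ ∧ dx¹ ∧ dx² ∧ dx³` in `α ∧ β`. -/
def wedge (α β : Alt 2) : ℝ :=
  α ![e 0, e 1] * β ![e 2, e 3] - α ![e 0, e 2] * β ![e 1, e 3] + α ![e 0, e 3] * β ![e 1, e 2]
    + α ![e 1, e 2] * β ![e 0, e 3] - α ![e 1, e 3] * β ![e 0, e 2] + α ![e 2, e 3] * β ![e 0, e 1]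

/-- A smooth `k`-form on the torus `ℝ⁴ / ℤ⁴`: a smooth (infinitely differentiable)
`ℤ⁴`-periodic `k`-form on `ℝ⁴`. -/
structure IsTorusForm {k : ℕ} (η : E4 → Alt k) : Prop where
  smooth : ContDiff ℝ ((⊤ : ℕ∞) : WithTop ℕ∞) η
  periodic : ∀ (m : Fin 4 → ℤ) (x : E4), η (x + fun i => (m i : ℝ)) = η x

/-- A hypersymplectic structure on `T⁴ = ℝ⁴ / ℤ⁴` (oriented by `dx⁰ ∧ dx¹ ∧ dx² ∧ dx³`): a triple of
closed `2`-forms such that the matrix `ω i ∧ ω j` is positive definite at every point. -/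
structure IsHypersymplectic (ω : Fin 3 → E4 → Alt 2) : Prop where
  isForm : ∀ i, IsTorusForm (ω i)
  closed : ∀ i x, extDeriv (ω i) x = 0
  posDef : ∀ x, (Matrix.of fun i j => wedge (ω i x) (ω j x)).PosDef

/-- A hyperkaehler triple on `T⁴`: a hypersymplectic structure with
`ω i ∧ ω j = 2 δ_{ij} f dx⁰ ∧ dx¹ ∧ dx² ∧ dx³` for a positive function `f`. -/
def IsHyperkahlerTriple (ω : Fin 3 → E4 → Alt 2) : Prop :=
  IsHypersymplectic ω ∧ ∃ f : E4 → ℝ, (∀ x, 0 < f x) ∧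
    ∀ x i j, wedge (ω i x) (ω j x) = if i = j then 2 * f x else 0

/-- Two `2`-forms on `T⁴` are cohomologous: their difference is `d` of a `1`-form on `T⁴`. -/
def Cohomologous (η η' : E4 → Alt 2) : Prop :=
  ∃ α : E4 → Alt 1, IsTorusForm α ∧ ∀ x, η' x - η x = extDeriv α x

/-- `Ω` is a cohomologous deformation of the triple `ω`: a family `Ω t`, smooth in `(t, x)`, of
hypersymplectic structures (for `0 ≤ t ≤ 1`), with `Ω 0 = ω` and `Ω t i` cohomologous to `ω i`. -/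
structure IsCohomologousDeformation (ω : Fin 3 → E4 → Alt 2) (Ω : ℝ → Fin 3 → E4 → Alt 2) :
    Prop where
  smooth : ∀ i, ContDiff ℝ ((⊤ : ℕ∞) : WithTop ℕ∞) (fun p : ℝ × E4 => Ω p.1 i p.2)
  hyper : ∀ t ∈ Set.Icc (0 : ℝ) 1, IsHypersymplectic (Ω t)
  start : Ω 0 = ω
  cohom : ∀ t ∈ Set.Icc (0 : ℝ) 1, ∀ i, Cohomologous (ω i) (Ω t i)

/-- The Gram matrix `∫_{T⁴} ω i ∧ ω j` is the identity. -/
def IsNormalized (ω : Fin 3 → E4 → Alt 2) : Prop :=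
  ∀ i j, ∫ x in Set.Icc (0 : E4) 1, wedge (ω i x) (ω j x) = if i = j then 1 else 0

end Vale.Agent.P247
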