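import Vale.Agent.P247.Defs

/-!
# P247: the linear path from a hypersymplectic structure on `T⁴` to a constant triple
-/

namespace Vale.Agent.P247

lemma wedge_comm (α β : Alt 2) : wedge α β = wedge β α := by
  unfold wedge; ring

lemma wedge_add_left (α α' β : Alt 2) : wedge (α + α') β = wedge α β + wedge α' β := by
  unfold wedge; simp only [ContinuousAlternatingMap.add_apply]; ring

lemma wedge_smul_left (r : ℝ) (α β : Alt 2) : wedge (r • α) β = r * wedge α β := by
  unfold wedge; simp only [ContinuousAlternatingMap.smul_apply, smul_eq_mul]; ring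

lemma wedge_add_right (α β β' : Alt 2) : wedge α (β + β') = wedge α β + wedge α β' := by
  rw [wedge_comm, wedge_add_left, wedge_comm β, wedge_comm β']

lemma wedge_smul_right (r : ℝ) (α β : Alt 2) : wedge α (r • β) = r * wedge α β := by
  rw [wedge_comm, wedge_smul_left, wedge_comm]

lemma wedge_zero_left (β : Alt 2) : wedge 0 β = 0 := by
  unfold wedge; simp

lemma wedge_sum_left {ι : Type*} (s : Finset ι) (a : ι → Alt 2) (β : Alt 2) :
    wedge (∑ i ∈ s, a i) β = ∑ i ∈ s, wedge (a i) β := by
  classical
  induction s using Finset.induction_on with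
  | empty => simp [wedge_zero_left]
  | insert i s hi ih => rw [Finset.sum_insert hi, Finset.sum_insert hi, wedge_add_left, ih]

lemma wedge_sum_right {ι : Type*} (s : Finset ι) (α : Alt 2) (b : ι → Alt 2) :
    wedge α (∑ i ∈ s, b i) = ∑ i ∈ s, wedge α (b i) := by
  rw [wedge_comm, wedge_sum_left]
  exact Finset.sum_congr rfl fun i _ => wedge_comm _ _

/-- The combination `v · a = ∑ i, v i • a i` of a triple of `2`-forms. -/
noncomputable def comb (v : Fin 3 → ℝ) (a : Fin 3 → Alt 2) : Alt 2 := ∑ i, v i • a i

lemma wedge_comb_comb (v w : Fin 3 → ℝ) (a b : Fin 3 → Alt 2) :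
    wedge (comb v a) (comb w b) = ∑ i, ∑ j, v i * w j * wedge (a i) (b j) := by
  unfold comb
  rw [wedge_sum_left]
  refine Finset.sum_congr rfl fun i _ => ?_
  rw [wedge_sum_right]
  refine Finset.sum_congr rfl fun j _ => ?_
  rw [wedge_smul_left, wedge_smul_right]; ring

/-- The Gram matrix of a triple is positive definite iff every nonzero combination has positive
square. -/
lemma posDef_gram_iff (a : Fin 3 → Alt 2) :
    (Matrix.of fun i j => wedge (a i) (a j)).PosDef ↔
      ∀ v : Fin 3 → ℝ, v ≠ 0 → 0 < wedge (comb v a) (comb v a) := by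
  have key : ∀ v : Fin 3 → ℝ, star v ⬝ᵥ ((Matrix.of fun i j => wedge (a i) (a j)).mulVec v)
      = wedge (comb v a) (comb v a) := by
    intro v
    rw [wedge_comb_comb]
    simp only [dotProduct, Matrix.mulVec, Matrix.of_apply, star_trivial, Pi.star_apply,
      Finset.mul_sum]
    refine Finset.sum_congr rfl fun i _ => Finset.sum_congr rfl fun j _ => ?_
    ring
  rw [Matrix.posDef_iff_dotProduct_mulVec]
  constructor
  · rintro ⟨-, h⟩ v hv
    rw [← key]; exact h hv
  · intro h
    refine ⟨?_, fun v hv => by rw [key]; exact h v hv⟩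
    ext i j
    simp [Matrix.conjTranspose_apply, wedge_comm]

/-- The linear path from the triple `ω` to the constant triple `c`. -/
noncomputable def linPath (ω : Fin 3 → E4 → Alt 2) (c : Fin 3 → Alt 2) (t : ℝ) (i : Fin 3)
    (x : E4) : Alt 2 := (1 - t) • ω i x + t • c i

lemma comb_linPath (ω : Fin 3 → E4 → Alt 2) (c : Fin 3 → Alt 2) (t : ℝ) (x : E4)
    (v : Fin 3 → ℝ) :
    comb v (fun i => linPath ω c t i x) = (1 - t) • comb v (fun i => ω i x) + t • comb v c := by
  unfold comb linPath
  simp only [smul_add, Finset.sum_add_distrib, Finset.smul_sum, smul_smul]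
  congr 1 <;> refine Finset.sum_congr rfl fun i _ => ?_ <;> rw [mul_comm]

lemma wedge_comb_linPath (ω : Fin 3 → E4 → Alt 2) (c : Fin 3 → Alt 2) (t : ℝ) (x : E4)
    (v : Fin 3 → ℝ) :
    wedge (comb v (fun i => linPath ω c t i x)) (comb v (fun i => linPath ω c t i x))
      = (1 - t) ^ 2 * wedge (comb v (fun i => ω i x)) (comb v (fun i => ω i x))
        + 2 * t * (1 - t) * wedge (comb v (fun i => ω i x)) (comb v c)
        + t ^ 2 * wedge (comb v c) (comb v c) := by
  rw [comb_linPath]
  simp only [wedge_add_left, wedge_add_right, wedge_smul_left, wedge_smul_right]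
  rw [wedge_comm (comb v c) (comb v fun i => ω i x)]
  ring

lemma extDeriv_const {k : ℕ} (c : Alt k) (x : E4) : extDeriv (fun _ : E4 => c) x = 0 := by
  have h : fderiv ℝ (fun _ : E4 => c) x = 0 := by simp
  rw [extDeriv, h]
  exact map_zero (ContinuousAlternatingMap.alternatizeUncurryFinCLM ℝ E4 ℝ)

/-- If all members of the linear path have positive definite Gram matrices, the linear path is a
cohomologous deformation. -/
theorem linPath_isCohomologousDeformation (ω : Fin 3 → E4 → Alt 2) (hω : IsHypersymplectic ω)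
    (c : Fin 3 → Alt 2) (hcoh : ∀ i, Cohomologous (ω i) (fun _ => c i))
    (hpos : ∀ t ∈ Set.Icc (0 : ℝ) 1, ∀ x,
      (Matrix.of fun i j => wedge (linPath ω c t i x) (linPath ω c t j x)).PosDef) :
    IsCohomologousDeformation ω (linPath ω c) := by
  refine ⟨?_, ?_, ?_, ?_⟩
  · intro i
    unfold linPath
    have h1 : ContDiff ℝ ((⊤ : ℕ∞) : WithTop ℕ∞) (fun p : ℝ × E4 => ω i p.2) :=
      (hω.isForm i).smooth.comp contDiff_snd
    have h2 : ContDiff ℝ ((⊤ : ℕ∞) : WithTop ℕ∞) (fun p : ℝ × E4 => (1 - p.1)) :=
      contDiff_const.sub contDiff_fst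
    exact (h2.smul h1).add (contDiff_fst.smul contDiff_const)
  · intro t ht
    refine ⟨?_, ?_, hpos t ht⟩
    · intro i
      refine ⟨?_, ?_⟩
      · unfold linPath
        exact ((contDiff_const (c := (1 - t))).smul (hω.isForm i).smooth).add contDiff_const
      · intro m x
        unfold linPath
        rw [(hω.isForm i).periodic]
    · intro i x
      have hd : DifferentiableAt ℝ (ω i) x :=
        ((hω.isForm i).smooth.differentiable (by simp)).differentiableAt
      have h1 : linPath ω c t i = ((1 - t) • ω i) + (fun _ => t • c i) := by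
        ext1 y; simp [linPath]
      rw [h1, extDeriv_add (hd.const_smul _) (differentiableAt_const _), extDeriv_smul,
        hω.closed i x, extDeriv_const]
      simp
  · ext i x : 2
    simp [linPath]
  · intro t _ i
    obtain ⟨α, hα, hαd⟩ := hcoh i
    refine ⟨t • α, ⟨(contDiff_const (c := t)).smul hα.smooth, ?_⟩, ?_⟩
    · intro m x
      simp only [Pi.smul_apply]
      rw [hα.periodic]
    · intro x
      rw [extDeriv_smul, ← hαd x]
      simp only [linPath]
      module

end Vale.Agent.P247
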